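import Mathlib.Data.Nat.Basic

namespace Claimed.Agent.Lead

theorem smoke_test : (1 : Nat) + 1 = 2 := rfl

end Claimed.Agent.Lead
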